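import Mathlib

/-!
# P318: capacities supported on a tree

For capacities supported on the edges of a tree, every semimetric `d` satisfies
`ratio(S) * ∑ d ≤ ∑ c d` for one of the cuts `S` obtained by deleting one edge of the tree.
-/

set_option linter.unusedSectionVars false

namespace Vale.Agent.Lib.P318

open Finset

variable {V : Type} [Fintype V] [DecidableEq V]

/-- The triangle inequality along a walk. -/
theorem walk_bound {T : SimpleGraph V} (d : V → V → ℝ) (d0 : ∀ i, d i i = 0)
    (dtri : ∀ i j k, d i k ≤ d i j + d j k) :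
    ∀ {i j : V} (p : T.Walk i j), d i j ≤ (p.darts.map (fun e => d e.fst e.snd)).sum
  | _, _, .nil => by simp [d0]
  | u, w, .cons (v := v) h p => by
      simp only [SimpleGraph.Walk.darts_cons, List.map_cons, List.sum_cons]
      have h1 := walk_bound d d0 dtri p
      have h2 := dtri u v w
      linarith

/-- In a trail, the part before a dart and the part after it avoid the edge of the dart. -/
theorem dart_sides {T : SimpleGraph V} :
    ∀ {i j : V} (p : T.Walk i j), p.IsTrail → ∀ D ∈ p.darts,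
      (∃ q : T.Walk D.fst i, D.edge ∉ q.edges) ∧ (∃ q : T.Walk D.snd j, D.edge ∉ q.edges)
  | _, _, .nil, _, D, hD => by simp at hD
  | i, j, .cons (v := w) h p, ht, D, hD => by
      rw [SimpleGraph.Walk.isTrail_cons] at ht
      obtain ⟨htp, hne⟩ := ht
      rw [SimpleGraph.Walk.darts_cons, List.mem_cons] at hD
      rcases hD with rfl | hD
      · exact ⟨⟨.nil, by simp⟩, ⟨p, hne⟩⟩
      · obtain ⟨⟨q1, hq1⟩, hq2⟩ := dart_sides p htp D hD
        have hDe : D.edge ∈ p.edges := List.mem_map_of_mem hD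
        refine ⟨⟨q1.concat h.symm, ?_⟩, hq2⟩
        rw [SimpleGraph.Walk.edges_concat, List.concat_eq_append, List.mem_append, not_or]
        refine ⟨hq1, ?_⟩
        intro hmem
        rw [List.mem_singleton] at hmem
        apply hne
        rw [Sym2.eq_swap, ← hmem]
        exact hDe

open Classical in
/-- The side of the first endpoint of an ordered pair: the vertices joined to it by a walk
avoiding the edge of the pair. -/
noncomputable def side (T : SimpleGraph V) (q : V × V) : Finset V :=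
  univ.filter (fun x => ∃ p : T.Walk q.1 x, s(q.1, q.2) ∉ p.edges)

omit [DecidableEq V] in
theorem mem_side {T : SimpleGraph V} {q : V × V} {x : V} :
    x ∈ side T q ↔ ∃ p : T.Walk q.1 x, s(q.1, q.2) ∉ p.edges := by
  classical
  simp [side]

theorem fst_mem_side (T : SimpleGraph V) (q : V × V) : q.1 ∈ side T q :=
  mem_side.2 ⟨.nil, by simp⟩

theorem snd_notMem_side {T : SimpleGraph V} (hT : T.IsAcyclic) {q : V × V}
    (hq : T.Adj q.1 q.2) : q.2 ∉ side T q := by
  intro h
  obtain ⟨p, hp⟩ := mem_side.1 h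
  have hb := SimpleGraph.isAcyclic_iff_forall_adj_isBridge.1 hT hq
  exact hp (SimpleGraph.isBridge_iff_forall_walk_mem_edges.1 hb p)

/-- The only adjacent pair leaving the side of `q` is `q` itself. -/
theorem eq_of_adj_side {T : SimpleGraph V} (hT : T.IsAcyclic) {q : V × V}
    (hq : T.Adj q.1 q.2) {x y : V} (hx : x ∈ side T q) (hy : y ∉ side T q) (hxy : T.Adj x y) :
    x = q.1 ∧ y = q.2 := by
  obtain ⟨p, hp⟩ := mem_side.1 hx
  by_cases he : s(x, y) = s(q.1, q.2)
  · rcases Sym2.eq_iff.1 he with h | h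
    · exact h
    · exfalso
      rw [h.1] at hx
      exact snd_notMem_side hT hq hx
  · exfalso
    apply hy
    refine mem_side.2 ⟨p.concat hxy, ?_⟩
    rw [SimpleGraph.Walk.edges_concat, List.concat_eq_append, List.mem_append, not_or]
    refine ⟨hp, ?_⟩
    intro hmem
    rw [List.mem_singleton] at hmem
    exact he hmem.symm

/-- A dart of a trail from `i` to `j` in a forest has `i` on its side and `j` off it. -/
theorem dart_separates {T : SimpleGraph V} (hT : T.IsAcyclic) {i j : V} (p : T.Walk i j)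
    (hp : p.IsTrail) (D : T.Dart) (hD : D ∈ p.darts) :
    i ∈ side T D.toProd ∧ j ∉ side T D.toProd := by
  obtain ⟨⟨q1, hq1⟩, ⟨q2, hq2⟩⟩ := dart_sides p hp D hD
  have hb := SimpleGraph.isAcyclic_iff_forall_adj_isBridge.1 hT D.adj
  constructor
  · exact mem_side.2 ⟨q1, hq1⟩
  · intro hj
    obtain ⟨q3, hq3⟩ := mem_side.1 hj
    have := SimpleGraph.isBridge_iff_forall_walk_mem_edges.1 hb (q3.append q2.reverse)
    rw [SimpleGraph.Walk.edges_append, List.mem_append, SimpleGraph.Walk.edges_reverse,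
      List.mem_reverse] at this
    rcases this with h | h
    · exact hq3 h
    · exact hq2 h

open Classical in
/-- A distance is at most the sum of the lengths of the ordered adjacent pairs separating the
two points. -/
theorem dist_le_sum_sep {T : SimpleGraph V} (hT : T.IsTree) (d : V → V → ℝ)
    (d0 : ∀ i, d i i = 0) (dsymm : ∀ i j, d i j = d j i)
    (dtri : ∀ i j k, d i k ≤ d i j + d j k) (i j : V) :
    d i j ≤ ∑ q : V × V,
      if T.Adj q.1 q.2 ∧ i ∈ side T q ∧ j ∉ side T q then d q.1 q.2 else 0 := by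
  obtain ⟨w⟩ := hT.isConnected.preconnected i j
  have hpath : (w.toPath : T.Walk i j).IsPath := w.toPath.2
  have h1 := walk_bound d d0 dtri (w.toPath : T.Walk i j)
  have hnd : ((w.toPath : T.Walk i j).darts.map SimpleGraph.Dart.toProd).Nodup :=
    (SimpleGraph.Walk.darts_nodup_of_support_nodup hpath.support_nodup).map
      SimpleGraph.Dart.toProd_injective
  have h2 : ((w.toPath : T.Walk i j).darts.map (fun e => d e.fst e.snd)).sum
      = ∑ q ∈ ((w.toPath : T.Walk i j).darts.map SimpleGraph.Dart.toProd).toFinset,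
          d q.1 q.2 := by
    rw [List.sum_toFinset _ hnd, List.map_map]
    rfl
  have hnn : ∀ a b, 0 ≤ d a b := by
    intro a b
    have := dtri a b a
    rw [d0, ← dsymm a b] at this
    linarith
  rw [h2] at h1
  refine h1.trans ?_
  rw [← Finset.sum_filter]
  apply Finset.sum_le_sum_of_subset_of_nonneg
  · intro q hq
    rw [List.mem_toFinset, List.mem_map] at hq
    obtain ⟨D, hD, rfl⟩ := hq
    rw [Finset.mem_filter]
    exact ⟨Finset.mem_univ _, D.adj, dart_separates hT.isAcyclic _ hpath.isTrail D hD⟩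
  · intros
    exact hnn _ _

open Classical in
theorem sum_dist_le {T : SimpleGraph V} (hT : T.IsTree) (d : V → V → ℝ)
    (d0 : ∀ i, d i i = 0) (dsymm : ∀ i j, d i j = d j i)
    (dtri : ∀ i j k, d i k ≤ d i j + d j k) :
    ∑ i, ∑ j, d i j ≤ ∑ q : V × V, if T.Adj q.1 q.2 then
      d q.1 q.2 * (((side T q).card : ℝ) * (((side T q)ᶜ).card : ℝ)) else 0 := by
  calc ∑ i, ∑ j, d i j
      ≤ ∑ i, ∑ j, ∑ q : V × V,
          if T.Adj q.1 q.2 ∧ i ∈ side T q ∧ j ∉ side T q then d q.1 q.2 else 0 :=
        Finset.sum_le_sum fun i _ => Finset.sum_le_sum fun j _ =>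
          dist_le_sum_sep hT d d0 dsymm dtri i j
    _ = ∑ i, ∑ q : V × V, ∑ j,
          if T.Adj q.1 q.2 ∧ i ∈ side T q ∧ j ∉ side T q then d q.1 q.2 else 0 :=
        Finset.sum_congr rfl fun i _ => Finset.sum_comm
    _ = ∑ q : V × V, ∑ i, ∑ j,
          if T.Adj q.1 q.2 ∧ i ∈ side T q ∧ j ∉ side T q then d q.1 q.2 else 0 :=
        Finset.sum_comm
    _ = _ := by
        refine Finset.sum_congr rfl fun q _ => ?_
        by_cases hq : T.Adj q.1 q.2
        · simp only [hq, true_and, if_true]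
          have h : ∀ i j, (if i ∈ side T q ∧ j ∉ side T q then d q.1 q.2 else 0)
              = (if i ∈ side T q then (1 : ℝ) else 0) *
                ((if j ∈ (side T q)ᶜ then (1 : ℝ) else 0) * d q.1 q.2) := by
            intro i j
            by_cases hi : i ∈ side T q <;> by_cases hj : j ∈ side T q <;> simp [hi, hj]
          simp_rw [h, ← Finset.mul_sum, ← Finset.sum_mul, Finset.sum_boole]
          simp only [Finset.filter_mem_eq_inter, Finset.univ_inter]
          ring
        · simp [hq]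

/-- The capacity leaving the side of an adjacent pair is the capacity of the pair. -/
theorem cut_side {T : SimpleGraph V} (hT : T.IsAcyclic) {q : V × V} (hq : T.Adj q.1 q.2)
    (c : V → V → ℝ) (hsupp : ∀ i j, c i j ≠ 0 → T.Adj i j) :
    ∑ i ∈ side T q, ∑ j ∈ (side T q)ᶜ, c i j = c q.1 q.2 := by
  rw [Finset.sum_eq_single_of_mem q.1 (fst_mem_side T q)]
  · rw [Finset.sum_eq_single_of_mem q.2 (by simpa using snd_notMem_side hT hq)]
    intro y hy hne
    by_contra h
    have := eq_of_adj_side hT hq (fst_mem_side T q) (by simpa using hy) (hsupp _ _ h)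
    exact hne this.2
  · intro x hx hne
    apply Finset.sum_eq_zero
    intro y hy
    by_contra h
    have := eq_of_adj_side hT hq hx (by simpa using hy) (hsupp _ _ h)
    exact hne this.1

open Classical in
/-- For capacities supported on a tree, one cut works for all semimetrics. -/
theorem tree_cut {T : SimpleGraph V} (hT : T.IsTree) {a b : V} (hab : a ≠ b)
    (c : V → V → ℝ) (hc0 : ∀ i j, 0 ≤ c i j) (hsupp : ∀ i j, c i j ≠ 0 → T.Adj i j) :
    ∃ S : Finset V, (∃ q : V × V, T.Adj q.1 q.2 ∧ S = side T q) ∧ S.Nonempty ∧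
      S ≠ Finset.univ ∧
      ∀ d : V → V → ℝ, (∀ i, d i i = 0) → (∀ i j, d i j = d j i) →
        (∀ i j k, d i k ≤ d i j + d j k) →
        (∑ i ∈ S, ∑ j ∈ Sᶜ, c i j) / ((S.card : ℝ) * ((Fintype.card V : ℝ) - S.card)) *
            (∑ i, ∑ j, d i j) ≤ ∑ i, ∑ j, c i j * d i j := by
  set Q : Finset (V × V) := Finset.univ.filter (fun q => T.Adj q.1 q.2) with hQ
  have hQne : Q.Nonempty := by
    obtain ⟨w⟩ := hT.isConnected.preconnected a b
    cases w with
    | nil => exact absurd rfl hab
    | cons h p => exact ⟨(_, _), by simpa [hQ] using h⟩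
  set m : V × V → ℝ := fun q => ((side T q).card : ℝ) * (((side T q)ᶜ).card : ℝ) with hm
  have hmpos : ∀ q ∈ Q, 0 < m q := by
    intro q hq
    have hq' : T.Adj q.1 q.2 := by simpa [hQ] using hq
    have h1 : 0 < (side T q).card := Finset.card_pos.2 ⟨_, fst_mem_side T q⟩
    have h2 : 0 < ((side T q)ᶜ).card :=
      Finset.card_pos.2 ⟨q.2, by simpa using snd_notMem_side hT.isAcyclic hq'⟩
    exact mul_pos (by exact_mod_cast h1) (by exact_mod_cast h2)
  obtain ⟨q0, hq0, hmin⟩ := Finset.exists_min_image Q (fun q => c q.1 q.2 / m q) hQne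
  have hq0' : T.Adj q0.1 q0.2 := by simpa [hQ] using hq0
  refine ⟨side T q0, ⟨q0, hq0', rfl⟩, ⟨_, fst_mem_side T q0⟩, ?_, ?_⟩
  · intro h
    exact snd_notMem_side hT.isAcyclic hq0' (h ▸ Finset.mem_univ _)
  intro d d0 dsymm dtri
  have hnn : ∀ a b, 0 ≤ d a b := by
    intro a b
    have := dtri a b a
    rw [d0, ← dsymm a b] at this
    linarith
  have hcut := cut_side hT.isAcyclic hq0' c hsupp
  have hden : ((side T q0).card : ℝ) * ((Fintype.card V : ℝ) - (side T q0).card) = m q0 := by
    simp only [hm]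
    rw [Finset.card_compl, Nat.cast_sub (Finset.card_le_univ _)]
  rw [hcut, hden]
  have hr0 : 0 ≤ c q0.1 q0.2 / m q0 := div_nonneg (hc0 _ _) (hmpos q0 hq0).le
  have hA : ∑ i, ∑ j, d i j ≤ ∑ q ∈ Q, d q.1 q.2 * m q := by
    have := sum_dist_le hT d d0 dsymm dtri
    rw [← Finset.sum_filter] at this
    exact this
  have hB : ∑ i, ∑ j, c i j * d i j = ∑ q ∈ Q, c q.1 q.2 * d q.1 q.2 := by
    rw [← Fintype.sum_prod_type' (fun i j => c i j * d i j), hQ, Finset.sum_filter]
    refine Finset.sum_congr rfl fun q _ => ?_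
    by_cases h : T.Adj q.1 q.2
    · simp [h]
    · have : c q.1 q.2 = 0 := by
        by_contra h'
        exact h (hsupp _ _ h')
      simp [h, this]
  calc c q0.1 q0.2 / m q0 * ∑ i, ∑ j, d i j
      ≤ c q0.1 q0.2 / m q0 * ∑ q ∈ Q, d q.1 q.2 * m q := mul_le_mul_of_nonneg_left hA hr0
    _ = ∑ q ∈ Q, c q0.1 q0.2 / m q0 * (d q.1 q.2 * m q) := Finset.mul_sum _ _ _
    _ ≤ ∑ q ∈ Q, c q.1 q.2 * d q.1 q.2 := by
        refine Finset.sum_le_sum fun q hq => ?_
        have h1 := hmin q hq
        have h2 : c q0.1 q0.2 / m q0 * m q ≤ c q.1 q.2 := by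
          rw [le_div_iff₀ (hmpos q hq)] at h1
          exact h1
        calc c q0.1 q0.2 / m q0 * (d q.1 q.2 * m q)
            = (c q0.1 q0.2 / m q0 * m q) * d q.1 q.2 := by ring
          _ ≤ c q.1 q.2 * d q.1 q.2 := mul_le_mul_of_nonneg_right h2 (hnn _ _)
    _ = _ := hB.symm

/-- A sum over ordered pairs of a symmetric function vanishing on the diagonal is twice the sum
over the pairs `i < j`. -/
theorem sum_lt_eq {N : ℕ} (f : Fin N → Fin N → ℝ) (f0 : ∀ i, f i i = 0)
    (fs : ∀ i j, f i j = f j i) :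
    ∑ i, ∑ j, f i j = 2 * ∑ i, ∑ j, (if i < j then f i j else 0) := by
  have h1 : ∀ i j, f i j = (if i < j then f i j else 0) + (if j < i then f j i else 0) := by
    intro i j
    rcases lt_trichotomy i j with h | h | h
    · simp [h, not_lt.2 h.le]
    · subst h
      simp [f0]
    · simp [h, not_lt.2 h.le, fs i j]
  have h2 : ∑ i, ∑ j, (if j < i then f j i else 0)
      = ∑ i, ∑ j, (if i < j then f i j else 0) := Finset.sum_comm
  calc ∑ i, ∑ j, f i j
      = ∑ i, ∑ j, ((if i < j then f i j else 0) + (if j < i then f j i else 0)) :=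
        Finset.sum_congr rfl fun i _ => Finset.sum_congr rfl fun j _ => h1 i j
    _ = _ := by
        simp only [Finset.sum_add_distrib]
        rw [h2]
        ring

/-- The sums of the cut semimetric of a set `A`. -/
theorem cut_semimetric_sum (A : Finset V) (c : V → V → ℝ) (hcs : ∀ i j, c i j = c j i) :
    ∑ i, ∑ j, c i j * (if (i ∈ A ↔ j ∈ A) then (0 : ℝ) else 1)
      = 2 * ∑ i ∈ A, ∑ j ∈ Aᶜ, c i j := by
  have e1 : ∑ i ∈ A, ∑ j ∈ Aᶜ, c i j
      = ∑ i, ∑ j, (if i ∈ A ∧ j ∉ A then c i j else 0) := by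
    rw [← Fintype.sum_ite_mem A]
    refine Finset.sum_congr rfl fun i _ => ?_
    by_cases hi : i ∈ A
    · simp only [hi, true_and, if_true]
      rw [← Fintype.sum_ite_mem Aᶜ]
      refine Finset.sum_congr rfl fun j _ => ?_
      simp
    · simp [hi]
  have h1 : ∀ i j, c i j * (if (i ∈ A ↔ j ∈ A) then (0 : ℝ) else 1)
      = (if i ∈ A ∧ j ∉ A then c i j else 0) + (if j ∈ A ∧ i ∉ A then c j i else 0) := by
    intro i j
    by_cases hi : i ∈ A <;> by_cases hj : j ∈ A <;> simp [hi, hj, hcs i j]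
  have h2 : ∑ i, ∑ j, (if j ∈ A ∧ i ∉ A then c j i else 0)
      = ∑ i, ∑ j, (if i ∈ A ∧ j ∉ A then c i j else 0) := Finset.sum_comm
  calc ∑ i, ∑ j, c i j * (if (i ∈ A ↔ j ∈ A) then (0 : ℝ) else 1)
      = ∑ i, ∑ j, ((if i ∈ A ∧ j ∉ A then c i j else 0)
          + (if j ∈ A ∧ i ∉ A then c j i else 0)) :=
        Finset.sum_congr rfl fun i _ => Finset.sum_congr rfl fun j _ => h1 i j
    _ = _ := by
        simp only [Finset.sum_add_distrib]
        rw [h2, ← e1]
        ring

end Vale.Agent.Lib.P318
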